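import Mathlib
import Vale.Agent.H9.CircRun

/-!
# P033: the circulant Hadamard conjecture, a restriction on the first row

`h : ZMod n → ℤ` is the first row of a real circulant sign matrix of order `n`
(entries `1` or `-1`, the matrix is `H i j = h (j - i)`), and the hypothesis
`∑ j, h j * h (j + t) = 0` for every `t ≠ 0` says that all periodic autocorrelations
`P_h(t)`, `1 ≤ t < n`, vanish, which is the Hadamard condition of the problem file.

Conclusions, for the first row of every circulant Hadamard matrix of order `n`: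

* every sum `S` of `a ≤ n` cyclically consecutive entries has `|S| * (S ^ 2 + 2) ≤ 3 * n * a`;
* every block of `L` cyclically consecutive equal entries has `3 * L ^ 2 + 4 ≤ 8 * n`, and
  `3 * b * a + a ^ 2 + 2 ≤ 3 * n` for every splitting `L = a + b` with `1 ≤ a`.

For the order `4` matrix with first row `1, 1, 1, -1` the last inequality is an equality
(`L = 3`, `a = 2`, `b = 1`).
-/

theorem Vale.Agent.Results.P033.A_RunLength.result
    (n : ℕ) [NeZero n] (h : ZMod n → ℤ)
    (hsgn : ∀ j, h j = 1 ∨ h j = -1)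
    (horth : ∀ t : ZMod n, t ≠ 0 → (∑ j, h j * h (j + t)) = 0) :
    (∀ a : ℕ, a ≤ n → ∀ i : ZMod n,
        |∑ k ∈ Finset.range a, h (i + (k : ZMod n))|
          * ((∑ k ∈ Finset.range a, h (i + (k : ZMod n))) ^ 2 + 2) ≤ 3 * (n : ℤ) * a) ∧
    (∀ (L : ℕ) (i : ZMod n), L ≤ n → (∀ k, k < L → h (i + (k : ZMod n)) = h i) →
        (3 * L ^ 2 + 4 ≤ 8 * n ∧
          ∀ a b : ℕ, 1 ≤ a → a + b = L → 3 * b * a + a ^ 2 + 2 ≤ 3 * n)) := by
  refine ⟨?_, ?_⟩
  · intro a ha i
    exact Vale.Agent.H9.Circ.win_bound h hsgn horth a ha i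
  · intro L i hL hrun
    refine ⟨Vale.Agent.H9.Circ.run_bound' h hsgn horth L hL i hrun, ?_⟩
    intro a b ha1 hab
    subst hab
    exact Vale.Agent.H9.Circ.run_family h hsgn horth a b ha1 hL i hrun
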