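import Vale.Agent.Results.P033.A_RunLength

/-!
# P033: blocks of signs in a real circulant Hadamard matrix, in matrix terms

Let `H` be a real circulant Hadamard matrix of order `n` with first row `h`: the entries are
`H i j = h (j - i)` (indices modulo `n`), every `h j` is `1` or `-1`, and `H * Hᵀ = n • 1`.
Then

(1) every sum `S` of `a ≤ n` cyclically consecutive entries of the first row satisfies
`|S| * (S ^ 2 + 2) ≤ 3 * n * a`;

(2) every block of `L ≤ n` cyclically consecutive equal entries of the first row satisfies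
`3 * L ^ 2 + 4 ≤ 8 * n`, and `3 * b * a + a ^ 2 + 2 ≤ 3 * n` for every splitting `L = a + b`
with `a ≥ 1`.

This is the hand-in `A_RunLength` of this folder, stated for the matrix itself instead of the
autocorrelations of its first row: the entry `(0, -t)` of `H * Hᵀ` is the periodic
autocorrelation `∑ j, h j * h (j + t)`.
-/

theorem Vale.Agent.Results.P033.B_MatrixForm.result
    (n : ℕ) [NeZero n] (H : Matrix (ZMod n) (ZMod n) ℤ) (h : ZMod n → ℤ)
    (hsgn : ∀ j, h j = 1 ∨ h j = -1)
    (hcirc : ∀ i j, H i j = h (j - i))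
    (hHad : H * H.transpose = (n : ℤ) • (1 : Matrix (ZMod n) (ZMod n) ℤ)) :
    (∀ a : ℕ, a ≤ n → ∀ i : ZMod n,
        |∑ k ∈ Finset.range a, h (i + (k : ZMod n))|
          * ((∑ k ∈ Finset.range a, h (i + (k : ZMod n))) ^ 2 + 2) ≤ 3 * (n : ℤ) * a) ∧
    (∀ (L : ℕ) (i : ZMod n), L ≤ n → (∀ k, k < L → h (i + (k : ZMod n)) = h i) →
        (3 * L ^ 2 + 4 ≤ 8 * n ∧
          ∀ a b : ℕ, 1 ≤ a → a + b = L → 3 * b * a + a ^ 2 + 2 ≤ 3 * n)) := by
  have horth : ∀ t : ZMod n, t ≠ 0 → (∑ j, h j * h (j + t)) = 0 := by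
    intro t ht
    have e := congrFun (congrFun hHad 0) (-t)
    rw [Matrix.mul_apply] at e
    have hne : (0 : ZMod n) ≠ -t := by
      intro h0
      exact ht (by simpa using h0.symm)
    simp only [Matrix.transpose_apply, hcirc, sub_zero, sub_neg_eq_add, Matrix.smul_apply,
      Matrix.one_apply_ne hne, smul_zero] at e
    exact e
  exact Vale.Agent.Results.P033.A_RunLength.result n h hsgn horth
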